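import Vale.Agent.P040.Bp.Plan
import Vale.Agent.P040.H242.Rot

/-!
# The path between two tuples from the words (algebra)
-/

set_option autoImplicit false

namespace Vale.Agent.P040.W

open Topo Bp Hz FreeGroup

theorem hzPath_map {α G H : Type*} [Group G] [Group H] (ψ : G →* H) {n : ℕ}
    {L L' : List (α × G)} (p : HzPath n L L') :
    HzPath n (L.map fun q => (q.1, ψ q.2)) (L'.map fun q => (q.1, ψ q.2)) := by
  induction p with
  | refl L => exact HzPath.refl _
  | rot _ ih => exact HzPath.rot (by simpa using ih)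
  | tw _ ih =>
    refine HzPath.tw ?_
    simpa using ih
  | tw' _ ih =>
    refine HzPath.tw' ?_
    simpa using ih

theorem bar_map {α G : Type*} [Group G] (T f : α → G) (l : List α) : ∀ (E : G),
    (∀ L x L', l = L ++ x :: L' → f x = (E * (L.map T).prod) * T x *
      (E * (L.map T).prod)⁻¹) →
    bar (l.map fun x => (x, T x)) = cj E⁻¹ (l.reverse.map fun x => (x, f x)) := by
  induction l with
  | nil => intro E _; rfl
  | cons a t ih =>
    intro E h
    have h1 := ih (E * T a) (by
      intro L x L' hL
      have := h (a :: L) x L' (by rw [hL]; rfl)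
      rw [this, List.map_cons, List.prod_cons]
      group)
    have h2 := h [] a t rfl
    rw [List.map_cons, bar, h1, cj_cj, List.reverse_cons, List.map_append]
    simp only [cj, List.map_append, List.map_cons, List.map_nil]
    congr 1
    · apply List.map_congr_left
      intro q _
      congr 1
      group
    · simp only [List.map_nil, List.prod_nil, mul_one] at h2
      rw [h2]
      congr 2
      group

theorem pair_of {m : ℕ} {leaf : Fin m → ℝ} (b k : SStar leaf) {G : Type*} [Group G]
    (Tb Tk : Fin m → G) (φ : FreeGroup (Fin m) →* G) (A W : Fin m → FreeGroup (Fin m)) (C D : G)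
    (h1 : ∀ x, Tb x = C * φ (A x * of x * (A x)⁻¹) * C⁻¹)
    (h2 : ∀ L x L', k.rot = L ++ x :: L' →
      φ (of x) = (D * (L.map Tk).prod) * Tk x * (D * (L.map Tk).prod)⁻¹)
    (h3 : IsConj (b.rot.map fun x => A x * of x * (A x)⁻¹).prod (k.rot.reverse.map of).prod)
    (h4 : ∀ x, W x * of x * (W x)⁻¹ = A x * of x * (A x)⁻¹) (N : ℕ)
    (h5 : ∑ x, (W x).norm ≤ N) :
    ∃ n L L', n ≤ N ∧ TEq (b.rot.map fun x => (x, Tb x)) L ∧ HzPath n L L' ∧
      TEq L' (bar (k.rot.map fun x => (x, Tk x))) := by
  classical
  obtain ⟨n, K', P, e1, e2, e3⟩ := hz_path k.rot.reverse (b.rot.map fun x => (x, W x))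
    (by
      rw [List.map_map]
      have : (Prod.fst ∘ fun x : Fin m => (x, W x)) = id := rfl
      rw [this, List.map_id]
      exact (b.rot_perm.trans k.rot_perm.symm).trans (List.reverse_perm _).symm)
    (by
      rw [List.map_map]
      have : ((gp : Fin m × FreeGroup (Fin m) → _) ∘ fun x : Fin m => (x, W x)) =
          fun x => A x * of x * (A x)⁻¹ := by
        funext x
        exact h4 x
      rw [this]
      exact h3)
  refine ⟨n, _, _, ?_, ?_, hzPath_map φ e3, ?_⟩
  · refine (e1.trans (le_of_eq ?_)).trans h5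
    rw [List.map_map]
    have e4 := (b.rot_perm.map ((fun p : Fin m × FreeGroup (Fin m) => p.2.norm) ∘
      fun x => (x, W x))).sum_eq
    rw [e4, ← Fin.sum_univ_def]
    rfl
  · refine ⟨C⁻¹, ?_⟩
    rw [List.map_map, List.map_map]
    unfold cj
    rw [List.map_map]
    have e4 : ∀ l : List (Fin m), l.map ((fun p : Fin m × G => (p.1, C⁻¹ * p.2 * C⁻¹⁻¹)) ∘
        fun x => (x, Tb x)) = l.map ((fun q : Fin m × FreeGroup (Fin m) => (q.1, φ q.2)) ∘
        (fun p => (p.1, gp p)) ∘ fun x => (x, W x)) := by
      intro l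
      apply List.map_congr_left
      intro x _
      simp only [Function.comp_apply, h1 x, gp, h4 x]
      congr 1
      group
    rw [e4]
    exact List.IsRotated.refl _
  · rw [bar_map Tk (fun x => φ (of x)) k.rot D h2]
    refine (TEq.of_rot (L' := cj (φ P) (k.rot.reverse.map fun x => (x, φ (of x)))) ?_).trans ?_
    · rw [List.map_map]
      unfold cj
      rw [List.map_map]
      have : ((fun q : Fin m × FreeGroup (Fin m) => (q.1, φ q.2)) ∘
          fun y : Fin m => (y, P * of y * P⁻¹)) =
          ((fun p : Fin m × G => (p.1, φ P * p.2 * (φ P)⁻¹)) ∘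
            fun x : Fin m => (x, φ (of x))) := by
        funext y
        simp
      rw [this]
      exact e2.map _
    · refine (TEq.of_cj (φ P) _).symm.trans (TEq.of_cj D⁻¹ _)

end Vale.Agent.P040.W
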