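import Vale.Agent.P040.W.Lab
import Vale.Agent.P040.W.PairOf
import Vale.Agent.P040.H45.W1

/-!
# `PairPath` from the product relation
-/

set_option autoImplicit false

namespace Vale.Agent.P040.W

open Topo Bp H177 Pst Hz

variable {m : ℕ} {leaf : Fin m → ℝ} {Γ : Type}

/-- **The tuples of two stars in general position**: the tuple of `b` is joined to the antipode of
the tuple of `k` by at most `b.cr k` Hurwitz moves. -/
theorem pairPath_loops (K : Gaps leaf Γ) (hK : Cyc K) (hm : 0 < m) {b k : SStar leaf}
    (hgp : b.GP k) :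
    ∃ n L L', n ≤ b.cr k ∧ TEq (b.rot.map fun x => (x, b.loop K x)) L ∧ HzPath n L L' ∧
      TEq L' (bar (k.rot.map fun x => (x, k.loop K x))) := by
  classical
  obtain ⟨ε, hε⟩ := exists_eps ((pts_finite b).union (pts_finite k))
  have hb : Eps (pts b) ε := hε.mono Set.subset_union_left
  have hk : Eps (pts k) ε := hε.mono Set.subset_union_right
  obtain ⟨u, hu⟩ := exists_pot k hm (gl K) fun x y hx hy h => gl_si hK hx hy h
  have hr := gl_reg (K := K) hk
  have hc := gl_ctr (K := K) hk hm
  set φ : FreeGroup (Fin m) →* FreeGroup Γ := FreeGroup.lift (jmp k ε (gl K) u) with hφd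
  have hφ : ∀ x, φ (FreeGroup.of x) = jmp k ε (gl K) u x := fun x => FreeGroup.lift_apply_of
  obtain ⟨κ, κ', hg⟩ := label_eq hk hu hr φ hφ
  obtain ⟨W, hW, hN, hrel⟩ := H45W.w1 hgp
  refine pair_of b k (fun x => b.loop K x) (fun x => k.loop K x) φ (H45.A k b) W
    (κ⁻¹ * φ (H45.H k true b.ctr)) (u (k.ctr + ε)) ?_ ?_ hrel hW (b.cr k) hN
  · intro x
    rw [loop_eq hb, lpc_change hε hgp hg hm]
  · intro L x L' hL
    rw [hφ, jmp_rot hm hk hu hr hc hL]
    have e1 : L.map (lpc k ε (gl K)) = L.map fun x => k.loop K x := by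
      apply List.map_congr_left
      intro y _
      rw [loop_eq hk]
    rw [e1, loop_eq hk]

/-- the conversion of spine stars into stars with the centre inside the upper page -/
noncomputable def conv (b : SStar leaf) : List (Fin m × List ℝ) := b.hub (b.exists_small).choose

theorem tup_conv (K : Gaps leaf Γ) (b : SStar leaf) :
    tup K (conv b) = b.rot.map fun x => (x, b.loop K x) :=
  SStar.tup_hub K (b.exists_small).choose_spec

/-- **PairPath** for the tuples of the gap words. -/
theorem pairPath {h : ℕ} {leaf : Fin (2 * h) → ℝ} (hh : 2 ≤ h) (K : Gaps leaf Γ) (hK : Cyc K) :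
    PairPath (tup K) (conv (leaf := leaf)) := by
  intro b k hgp
  rw [tup_conv, tup_conv]
  exact pairPath_loops K hK (by omega) hgp

theorem isStar_conv (b : SStar leaf) : IsStar leaf (conv b) :=
  SStar.isStar_hub (b.exists_small).choose_spec

/-- `PairPath` on the type of planar star diagrams. -/
theorem pairPath' {h : ℕ} {leaf : Fin (2 * h) → ℝ} (hh : 2 ≤ h) (K : Gaps leaf Γ) (hK : Cyc K) :
    PairPath (fun s : {S : List (Fin (2 * h) × List ℝ) // IsStar leaf S} => tup K s.1)
      (fun b : SStar leaf => ⟨conv b, isStar_conv b⟩) := by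
  intro b k hgp
  exact pairPath hh K hK b k hgp

end Vale.Agent.P040.W
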