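import Vale.Agent.P040.W.Trans
import Vale.Agent.P040.H105.Tup

/-!
# The labels of the gaps of the leaves
-/

set_option autoImplicit false

namespace Vale.Agent.P040.W

open Topo Bp H177 Pst

variable {m : ℕ} {leaf : Fin m → ℝ} {Γ : Type*} (K : Gaps leaf Γ)

/-- the label of a point as an element of the free group -/
def gl (t : ℝ) : FreeGroup Γ := FreeGroup.of (K.gap t)

/-- the two unbounded gaps have the same label -/
def Cyc : Prop := ∀ a c, (∀ x, a < leaf x) → (∀ x, leaf x < c) → K.gap a = K.gap c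

variable {K} {b : SStar leaf} {ε : ℝ}

theorem gl_const {a c : ℝ} (hac : a ≤ c) (h : ∀ x, leaf x ∉ Set.Icc a c) :
    gl K a = gl K c := by
  unfold gl
  rw [K.const a c hac h]

theorem gl_si (hK : Cyc K) {x y : ℝ} (hx : x ∉ pts b) (hy : y ∉ pts b) (h : SI (pts b) x y) :
    gl K x = gl K y := by
  have key : ∀ x y : ℝ, x ≤ y → x ∉ pts b → y ∉ pts b → (∀ p ∈ pts b, (p < x ↔ p < y)) →
      gl K x = gl K y := by
    intro x y hxy hx hy h
    refine gl_const hxy fun z hz => ?_
    have hm := leaf_mem b z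
    have h1 : leaf z ≠ x := fun h => hx (h ▸ hm)
    have h2 : leaf z ≠ y := fun h => hy (h ▸ hm)
    have h3 := (h _ hm).2 (lt_of_le_of_ne hz.2 h2)
    exact absurd h3 (not_lt.2 hz.1)
  rcases h with h | h | h
  · rcases le_total x y with hxy | hxy
    · exact key x y hxy hx hy h
    · exact (key y x hxy hy hx fun p hp => (h p hp).symm).symm
  · unfold gl
    rw [← hK y x (fun z => (h _ (leaf_mem b z)).2) (fun z => (h _ (leaf_mem b z)).1)]
  · unfold gl
    rw [hK x y (fun z => (h _ (leaf_mem b z)).1) (fun z => (h _ (leaf_mem b z)).2)]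

section

variable (h : Eps (pts b) ε)

include h

theorem gl_near {q : ℝ} (hq : q ∈ pts b) (hl : ∀ x, leaf x ≠ q) (s : Bool) :
    gl K (q + sh ε s) = gl K q := by
  have h0 := h.1
  cases s
  · simp only [sh, Bool.false_eq_true, if_false, ← sub_eq_add_neg]
    refine gl_const (by linarith) fun z hz => ?_
    have h1 := (h.sub_lt hq (leaf_mem b z)).1 (lt_of_le_of_ne hz.1 fun e =>
      h.sub_notMem hq (e ▸ leaf_mem b z))
    exact hl z (le_antisymm hz.2 h1)
  · simp only [sh, if_true]
    refine (gl_const (by linarith) fun z hz => ?_).symm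
    have h1 := (h.lt_add hq (leaf_mem b z)).1 (lt_of_le_of_ne hz.2 fun e =>
      h.add_notMem hq (e ▸ leaf_mem b z))
    exact hl z (le_antisymm h1 hz.1)

theorem gl_reg : Reg b ε (gl K) := by
  intro x i hi
  have hl : ∀ z, leaf z ≠ (b.arm x).p (i + 1) := by
    intro z e
    rw [← b.arm_last z] at e
    rcases b.inj z _ x _ le_rfl (by omega) e with ⟨h1, h2⟩ | h1
    · subst h1; omega
    · omega
  exact ⟨gl_near h (pts_mem b x (by omega)) hl _, gl_near h (pts_mem b x (by omega)) hl _⟩

theorem gl_ctr (hm : 0 < m) : gl K (b.ctr - ε) = gl K b.ctr := by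
  have := gl_near (K := K) h (ctr_mem b hm) b.ctr_ne false
  simpa only [sh, Bool.false_eq_true, if_false, ← sub_eq_add_neg] using this

theorem gl_leaf_add (x : Fin m) : gl K (leaf x + ε) = FreeGroup.of (K.rt x) := by
  unfold gl
  have h0 := h.1
  rw [K.right x _ (by linarith) fun z hz => ?_]
  have h1 := (h.lt_add (leaf_mem b x) (leaf_mem b z)).1 (lt_of_le_of_ne hz.2 fun e =>
    h.add_notMem (leaf_mem b x) (e ▸ leaf_mem b z))
  exact absurd hz.1 (not_lt.2 h1)

theorem gl_leaf_sub (x : Fin m) : gl K (leaf x - ε) = FreeGroup.of (K.lt x) := by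
  unfold gl
  have h0 := h.1
  rw [K.left x _ (by linarith) fun z hz => ?_]
  have h1 := (h.sub_lt (leaf_mem b x) (leaf_mem b z)).1 (lt_of_le_of_ne hz.1 fun e =>
    h.sub_notMem (leaf_mem b x) (e ▸ leaf_mem b z))
  exact absurd hz.2 (not_lt.2 h1)

theorem tipl_gl (x : Fin m) : tipl b ε (gl K) x = tip K x (b.lastPage x) := by
  unfold tipl rc lc tip SStar.lastPage
  rw [last_pt b x]
  cases hs : (b.arm x).page ((b.arm x).len - 1)
  · simp only [sh, Bool.not_false, if_true, Bool.false_eq_true, if_false, ← sub_eq_add_neg,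
      cross, gl_leaf_add h, gl_leaf_sub h]
  · simp only [sh, Bool.not_true, if_true, Bool.false_eq_true, if_false, ← sub_eq_add_neg,
      cross, gl_leaf_add h, gl_leaf_sub h]

end

theorem wd_range (x : Fin m) (n : ℕ) :
    wd K (b.arm x).up ((List.range n).map fun j => (b.arm x).p (j + 1)) = ww b (gl K) x n := by
  induction n with
  | zero => rfl
  | succ n ih =>
    rw [List.range_succ, List.map_append, wd_append, ih, ww, List.length_map, List.length_range,
      ← Bp.SStar.page_eq_fl]
    simp only [List.map_cons, List.map_nil, wd, mul_one]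
    rfl

/-- **The loops of the tuple are the loops of the potential layer.** -/
theorem loop_eq (h : Eps (pts b) ε) (x : Fin m) : b.loop K x = lpc b ε (gl K) x := by
  have hl := (b.arm x).len_pos
  obtain ⟨n, hn⟩ : ∃ n, (b.arm x).len = n + 1 := ⟨(b.arm x).len - 1, by omega⟩
  have e1 : (b.tl x).dropLast = (List.range n).map fun j => (b.arm x).p (j + 1) := by
    unfold SStar.tl
    rw [hn, List.range_succ, List.map_append]
    simp
  unfold SStar.loop SStar.aw lpc lpw
  rw [e1, wd_range, tipl_gl h, show (b.arm x).len - 1 = n by omega]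
  cases hs : (b.arm x).up
  · simp only [Bool.false_eq_true, if_false]
    show gl K b.ctr * _ * _ * (gl K b.ctr * _)⁻¹ = _
    group
  · simp only [if_true, one_mul]

end Vale.Agent.P040.W
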