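import Vale.Agent.P040.W.Side

/-!
# Potentials of a spine star

`g` labels the points of the spine by elements of a group, `u` is a potential of the complement of
the star. The jump across an arm is constant along the arm; in the order of the rotation the jumps
are the loops of the arms up to conjugation.
-/

set_option autoImplicit false

namespace Vale.Agent.P040.W

open Topo Bp H177

variable {m : ℕ} {leaf : Fin m → ℝ} {G : Type*} [Group G]

/-- the letter of a crossing from the page `s` to the other page -/
def cross (s : Bool) (a : G) : G := if s then a else a⁻¹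

theorem cross_not (s : Bool) (a : G) : cross (!s) a = (cross s a)⁻¹ := by
  cases s <;> simp [cross]

/-- the potential of the page `s` -/
def tau (g u : ℝ → G) (s : Bool) (z : ℝ) : G := if s then u z else u z * g z

/-- `u` is a potential of the star `b` with the labels `g` -/
structure IsPot (b : SStar leaf) (g u : ℝ → G) : Prop where
  up : ∀ x y, x ∉ pts b → y ∉ pts b → NS (arcs b true) x y → u x = u y
  dn : ∀ x y, x ∉ pts b → y ∉ pts b → NS (arcs b false) x y → u x * g x = u y * g y

/-- the labels are constant on the intervals of the spine without points of the star -/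
theorem exists_pot {G : Type} [Group G] (b : SStar leaf) (hm : 0 < m) (g : ℝ → G)
    (hg : ∀ x y, x ∉ pts b → y ∉ pts b → SI (pts b) x y → g x = g y) : ∃ u, IsPot b g u := by
  obtain ⟨u, h1, h2⟩ := (tree b hm).pot G g hg
  exact ⟨u, h1, h2⟩

theorem tau_ns {b : SStar leaf} {g u : ℝ → G} (hu : IsPot b g u) {s : Bool} {x y : ℝ}
    (hx : x ∉ pts b) (hy : y ∉ pts b) (h : NS (arcs b s) x y) : tau g u s x = tau g u s y := by
  cases s
  · exact hu.dn x y hx hy h
  · exact hu.up x y hx hy h

theorem tau_not (g u : ℝ → G) (s : Bool) (z : ℝ) :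
    tau g u (!s) z = tau g u s z * cross s (g z) := by
  cases s <;> simp [tau, cross]

/-- the word of the first `i` crossings of the arm `x` -/
def ww (b : SStar leaf) (g : ℝ → G) (x : Fin m) : ℕ → G
  | 0 => 1
  | i + 1 => ww b g x i * cross ((b.arm x).page i) (g ((b.arm x).p (i + 1)))

/-- the labels at the crossings of the arms do not change -/
def Reg (b : SStar leaf) (ε : ℝ) (g : ℝ → G) : Prop :=
  ∀ x i, i + 1 < (b.arm x).len → g (rc b ε x i) = g ((b.arm x).p (i + 1)) ∧
    g (lc b ε x i) = g ((b.arm x).p (i + 1))

/-- the small loop at the leaf, from the page of arrival, counterclockwise -/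
def tipl (b : SStar leaf) (ε : ℝ) (g : ℝ → G) (x : Fin m) : G :=
  cross ((b.arm x).page ((b.arm x).len - 1)) (g (rc b ε x ((b.arm x).len - 1))) *
    cross (!(b.arm x).page ((b.arm x).len - 1)) (g (lc b ε x ((b.arm x).len - 1)))

/-- the loop of the arm, from the first page -/
def lpw (b : SStar leaf) (ε : ℝ) (g : ℝ → G) (x : Fin m) : G :=
  ww b g x ((b.arm x).len - 1) * tipl b ε g x * (ww b g x ((b.arm x).len - 1))⁻¹

/-- the jump across the arm `x` -/
def jmp (b : SStar leaf) (ε : ℝ) (g u : ℝ → G) (x : Fin m) : G :=
  tau g u (b.arm x).up (lc b ε x 0) * (tau g u (b.arm x).up (rc b ε x 0))⁻¹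

section

variable {b : SStar leaf} {ε : ℝ} (h : Eps (pts b) ε) {g u : ℝ → G} (hu : IsPot b g u)
  (hr : Reg b ε g)

include h hu hr

theorem tau_rc (x : Fin m) (i : ℕ) (hi : i < (b.arm x).len) :
    tau g u ((b.arm x).page i) (rc b ε x i) =
      tau g u (b.arm x).up (rc b ε x 0) * ww b g x i := by
  induction i with
  | zero => rw [page_zero]; simp [ww]
  | succ i ih =>
    have e := tau_ns hu (rc_notMem h le_rfl (x := x) (i := i) (by omega))
      (rc_notMem h le_rfl (x := x) (i := i + 1) hi) (ns_right h le_rfl hi)
    rw [← e, page_succ, tau_not, ih (by omega), ww, (hr x i hi).1, mul_assoc]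

theorem tau_lc (x : Fin m) (i : ℕ) (hi : i < (b.arm x).len) :
    tau g u ((b.arm x).page i) (lc b ε x i) =
      tau g u (b.arm x).up (lc b ε x 0) * ww b g x i := by
  induction i with
  | zero => rw [page_zero]; simp [ww]
  | succ i ih =>
    have e := tau_ns hu (lc_notMem h le_rfl (x := x) (i := i) (by omega))
      (lc_notMem h le_rfl (x := x) (i := i + 1) hi) (ns_left h le_rfl hi)
    rw [← e, page_succ, tau_not, ih (by omega), ww, (hr x i hi).2, mul_assoc]

/-- the jump, at any point in the page of arrival -/
theorem jmp_arr (x : Fin m) (i : ℕ) (hi : i < (b.arm x).len) :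
    tau g u ((b.arm x).page i) (lc b ε x i) =
      jmp b ε g u x * tau g u ((b.arm x).page i) (rc b ε x i) := by
  rw [tau_rc h hu hr x i hi, tau_lc h hu hr x i hi, jmp]
  group

/-- the jump, at any crossing in both pages -/
theorem jmp_reg (x : Fin m) (i : ℕ) (hi : i + 1 < (b.arm x).len) (s : Bool) :
    tau g u s (lc b ε x i) = jmp b ε g u x * tau g u s (rc b ε x i) := by
  have h1 := jmp_arr h hu hr x i (by omega)
  by_cases hs : s = (b.arm x).page i
  · rw [hs]; exact h1
  · have hs' : s = !(b.arm x).page i := by
      revert hs; cases s <;> cases (b.arm x).page i <;> decide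
    rw [hs', tau_not, tau_not, h1, (hr x i hi).1, (hr x i hi).2, mul_assoc]

omit hr in
/-- no jump at the leaf in the other page -/
theorem jmp_tip (x : Fin m) (i : ℕ) (hi : i + 1 = (b.arm x).len) :
    tau g u (!(b.arm x).page i) (lc b ε x i) = tau g u (!(b.arm x).page i) (rc b ε x i) :=
  tau_ns hu (lc_notMem h le_rfl (x := x) (i := i) (by omega))
    (rc_notMem h le_rfl (x := x) (i := i) (by omega)) (ns_tip h le_rfl hi)

theorem lc_zero (x : Fin m) :
    tau g u (b.arm x).up (lc b ε x 0) =
      tau g u (b.arm x).up (rc b ε x 0) * lpw b ε g x := by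
  obtain ⟨i, hi⟩ : ∃ i, i + 1 = (b.arm x).len := ⟨(b.arm x).len - 1, by
    have := (b.arm x).len_pos; omega⟩
  have e1 := jmp_tip h hu x i hi
  have e2 := tau_rc h hu hr x i (by omega)
  have e3 := tau_lc h hu hr x i (by omega)
  have e4 : (b.arm x).len - 1 = i := by omega
  rw [tau_not, tau_not, e2, e3] at e1
  unfold lpw tipl
  rw [e4, cross_not]
  have e5 : tau g u (b.arm x).up (lc b ε x 0) =
      (tau g u (b.arm x).up (rc b ε x 0) * ww b g x i *
        cross ((b.arm x).page i) (g (rc b ε x i))) *
      (cross ((b.arm x).page i) (g (lc b ε x i)))⁻¹ * (ww b g x i)⁻¹ := by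
    rw [← e1]; group
  rw [e5]
  simp only [mul_assoc]

theorem jmp_eq (x : Fin m) :
    jmp b ε g u x = tau g u (b.arm x).up (rc b ε x 0) * lpw b ε g x *
      (tau g u (b.arm x).up (rc b ε x 0))⁻¹ := by
  rw [jmp, lc_zero h hu hr x]

end

/-! ### The rotation -/

/-- the arms which start in the page `s`, in the order of the rotation -/
noncomputable def sd (b : SStar leaf) (s : Bool) : List (Fin m) :=
  b.rot.filter fun x => (b.arm x).up = s

theorem mem_sd {b : SStar leaf} {s : Bool} {x : Fin m} : x ∈ sd b s ↔ (b.arm x).up = s := by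
  unfold sd
  rw [List.mem_filter]
  simp [b.mem_rot x]

theorem filter_split {α : Type*} (p : α → Bool) (l : List α)
    (hl : l.Pairwise fun x y => p y = true → p x = true) :
    l = l.filter p ++ l.filter (fun x => !p x) := by
  induction l with
  | nil => rfl
  | cons a l ih =>
    rw [List.pairwise_cons] at hl
    have ih := ih hl.2
    by_cases hp : p a = true
    · rw [List.filter_cons_of_pos hp, List.filter_cons_of_neg (by simp [hp])]
      exact congrArg (List.cons a) ih
    · have h1 : l.filter p = [] := by
        rw [List.filter_eq_nil_iff]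
        intro y hy hpy
        exact hp (hl.1 y hy hpy)
      rw [List.filter_cons_of_neg hp, List.filter_cons_of_pos (by simp [hp]), h1]
      rw [h1] at ih
      exact congrArg (List.cons a) ih

theorem rot_eq (b : SStar leaf) : b.rot = sd b true ++ sd b false := by
  have h := filter_split (fun x => decide ((b.arm x).up = true)) b.rot (by
    refine b.rot_pairwise.imp ?_
    intro x y hxy hy
    simp only [decide_eq_true_eq] at hy ⊢
    by_contra hx
    have hx' : (b.arm x).up = false := by simpa using hx
    linarith [b.ang_dn_mem hx', b.ang_up_mem hy])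
  refine h.trans ?_
  unfold sd
  congr 1
  apply List.filter_congr
  intro x _
  cases (b.arm x).up <;> decide

theorem sd_pairwise (b : SStar leaf) (s : Bool) :
    (sd b s).Pairwise fun x y => b.ang x < b.ang y := b.rot_pairwise.filter _

section

variable {b : SStar leaf} {ε : ℝ} (h : Eps (pts b) ε) {s : Bool}

include h

theorem sd_fst {y : Fin m} {L : List (Fin m)} (hL : sd b s = y :: L) :
    NS (arcs b s) (b.ctr + sh ε s) (rc b ε y 0) := by
  have hy : (b.arm y).up = s := mem_sd.1 (by rw [hL]; simp)
  have hpw := sd_pairwise b s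
  rw [hL, List.pairwise_cons] at hpw
  have hmin : ∀ w, (b.arm w).up = s → w ≠ y → b.ang y < b.ang w := by
    intro w hw hne
    have : w ∈ sd b s := mem_sd.2 hw
    rw [hL, List.mem_cons] at this
    rcases this with h1 | h1
    · exact absurd h1 hne
    · exact hpw.1 w h1
  subst hy
  rcases hs : (b.arm y).up with _ | _
  · have := ns_lst h le_rfl (x := y) (by
      intro w hw hlt
      have hne : w ≠ y := by rintro rfl; exact lt_irrefl _ hlt
      have h1 := hmin w hw hne
      rw [b.ang_dn hs, b.ang_dn (hw.trans hs)] at h1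
      linarith)
    rw [hs] at this
    unfold rc
    simp only [page_zero, hs, Bool.not_false, sh, if_true, Bool.false_eq_true, if_false,
      ← sub_eq_add_neg]
    exact this.symm
  · have := ns_fst h le_rfl (y := y) (by
      intro w hw hlt
      have hne : w ≠ y := by rintro rfl; exact lt_irrefl _ hlt
      have h1 := hmin w hw hne
      rw [b.ang_up hs, b.ang_up (hw.trans hs)] at h1
      linarith)
    rw [hs] at this
    unfold rc
    simp only [page_zero, hs, Bool.not_true, sh, if_true, Bool.false_eq_true, if_false,
      ← sub_eq_add_neg]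
    exact this

theorem sd_lst {x : Fin m} {L : List (Fin m)} (hL : sd b s = L ++ [x]) :
    NS (arcs b s) (lc b ε x 0) (b.ctr + sh ε (!s)) := by
  have hx : (b.arm x).up = s := mem_sd.1 (by rw [hL]; simp)
  have hpw := sd_pairwise b s
  rw [hL, List.pairwise_append] at hpw
  have hmax : ∀ w, (b.arm w).up = s → w ≠ x → b.ang w < b.ang x := by
    intro w hw hne
    have : w ∈ sd b s := mem_sd.2 hw
    rw [hL, List.mem_append, List.mem_singleton] at this
    rcases this with h1 | h1
    · exact hpw.2.2 w h1 x (by simp)
    · exact absurd h1 hne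
  subst hx
  rcases hs : (b.arm x).up with _ | _
  · have := ns_fst h le_rfl (y := x) (by
      intro w hw hlt
      have hne : w ≠ x := by rintro rfl; exact lt_irrefl _ hlt
      have h1 := hmax w hw hne
      rw [b.ang_dn hs, b.ang_dn (hw.trans hs)] at h1
      linarith)
    rw [hs] at this
    unfold lc
    simp only [page_zero, hs, Bool.not_false, sh, if_true, Bool.false_eq_true, if_false,
      ← sub_eq_add_neg]
    exact this.symm
  · have := ns_lst h le_rfl (x := x) (by
      intro w hw hlt
      have hne : w ≠ x := by rintro rfl; exact lt_irrefl _ hlt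
      have h1 := hmax w hw hne
      rw [b.ang_up hs, b.ang_up (hw.trans hs)] at h1
      linarith)
    rw [hs] at this
    unfold lc
    simp only [page_zero, hs, Bool.not_true, sh, if_true, Bool.false_eq_true, if_false,
      ← sub_eq_add_neg]
    exact this

theorem sd_mid {x y : Fin m} {L L' : List (Fin m)} (hL : sd b s = L ++ x :: y :: L') :
    NS (arcs b s) (lc b ε x 0) (rc b ε y 0) := by
  have hx : (b.arm x).up = s := mem_sd.1 (by rw [hL]; simp)
  have hy : (b.arm y).up = s := mem_sd.1 (by rw [hL]; simp)
  have hpw := sd_pairwise b s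
  rw [hL, List.pairwise_append, List.pairwise_cons, List.pairwise_cons] at hpw
  obtain ⟨-, ⟨h1, h2, -⟩, h3⟩ := hpw
  have hxy : b.ang x < b.ang y := h1 y (by simp)
  have hno : ∀ w, (b.arm w).up = s → ¬ (b.ang x < b.ang w ∧ b.ang w < b.ang y) := by
    intro w hw hlt
    have : w ∈ sd b s := mem_sd.2 hw
    rw [hL, List.mem_append, List.mem_cons, List.mem_cons] at this
    rcases this with h4 | rfl | rfl | h4
    · exact lt_asymm (h3 w h4 x (by simp)) hlt.1
    · exact lt_irrefl _ hlt.1
    · exact lt_irrefl _ hlt.2
    · exact lt_asymm (h2 w h4) hlt.2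
  subst hx
  rcases hs : (b.arm x).up with _ | _
  · have hs' := hy.trans hs
    have := ns_mid h le_rfl (x := y) (y := x) hy (by
      rw [b.ang_dn hs, b.ang_dn hs'] at hxy; linarith) (by
      intro w hw hlt
      have hw' := hw.trans hy
      refine hno w hw' ?_
      rw [b.ang_dn hs, b.ang_dn hs', b.ang_dn (hw'.trans hs)]
      constructor <;> linarith [hlt.1, hlt.2])
    rw [hs'] at this
    unfold lc rc
    simp only [page_zero, hs, hs', Bool.not_false, sh, if_true, Bool.false_eq_true, if_false,
      ← sub_eq_add_neg]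
    exact this.symm
  · have hs' := hy.trans hs
    have := ns_mid h le_rfl (x := x) (y := y) hy.symm (by
      rw [b.ang_up hs, b.ang_up hs'] at hxy; linarith) (by
      intro w hw hlt
      refine hno w hw ?_
      rw [b.ang_up hs, b.ang_up hs', b.ang_up (hw.trans hs)]
      constructor <;> linarith [hlt.1, hlt.2])
    rw [hs] at this
    unfold lc rc
    simp only [page_zero, hs, hs', Bool.not_true, sh, if_true, Bool.false_eq_true, if_false,
      ← sub_eq_add_neg]
    exact this

theorem sd_nil (hL : sd b s = []) :
    NS (arcs b s) (b.ctr + sh ε s) (b.ctr + sh ε (!s)) := by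
  have := ns_none h le_rfl (s := s) (by
    intro w hw
    have : w ∈ sd b s := mem_sd.2 hw
    rw [hL] at this
    simp at this)
  cases s
  · simp only [sh, if_true, Bool.false_eq_true, if_false, ← sub_eq_add_neg, Bool.not_false]
    exact this.symm
  · simp only [sh, if_true, Bool.false_eq_true, if_false, ← sub_eq_add_neg, Bool.not_true]
    exact this

end

theorem ctr_mem (b : SStar leaf) (hm : 0 < m) : b.ctr ∈ pts b :=
  ⟨⟨0, hm⟩, 0, by omega, (b.arm_zero _).symm⟩

section

variable {b : SStar leaf} {ε : ℝ} (hm : 0 < m) (h : Eps (pts b) ε) {g u : ℝ → G}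
  (hu : IsPot b g u) (hr : Reg b ε g)

include hm h hu hr

/-- the potential on the right of the arms of one page -/
theorem sd_rc (s : Bool) (L : List (Fin m)) : ∀ (x : Fin m) (L' : List (Fin m)),
    sd b s = L ++ x :: L' → tau g u s (rc b ε x 0) =
      tau g u s (b.ctr + sh ε s) * (L.map (lpw b ε g)).prod := by
  have hc : ∀ s, b.ctr + sh ε s ∉ pts b := fun s => sh_notMem h (ctr_mem b hm) s
  have hl : ∀ x, rc b ε x 0 ∉ pts b ∧ lc b ε x 0 ∉ pts b := fun x =>
    ⟨rc_notMem h le_rfl (b.arm x).len_pos, lc_notMem h le_rfl (b.arm x).len_pos⟩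
  induction L using List.reverseRecOn with
  | nil =>
    intro x L' hL
    simp only [List.map_nil, List.prod_nil, mul_one]
    exact (tau_ns hu (hc s) (hl x).1 (sd_fst h hL)).symm
  | append_singleton L z ih =>
    intro x L' hL
    have hz : (b.arm z).up = s := mem_sd.1 (by rw [hL]; simp)
    have hL2 : sd b s = L ++ z :: (x :: L') := by rw [hL]; simp
    have e1 := ih z _ hL2
    have e2 := tau_ns hu (hl z).2 (hl x).1 (sd_mid h (x := z) (y := x) hL2)
    have e3 := lc_zero h hu hr z
    rw [hz] at e3
    rw [← e2, e3, e1, List.map_append, List.prod_append]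
    simp only [List.map_cons, List.map_nil, List.prod_cons, List.prod_nil, mul_one, mul_assoc]

/-- the potential at the other side of the centre -/
theorem sd_end (s : Bool) : tau g u s (b.ctr + sh ε (!s)) =
    tau g u s (b.ctr + sh ε s) * ((sd b s).map (lpw b ε g)).prod := by
  have hc : ∀ s, b.ctr + sh ε s ∉ pts b := fun s => sh_notMem h (ctr_mem b hm) s
  rcases List.eq_nil_or_concat (sd b s) with hL | ⟨L, x, hL⟩
  · rw [hL]
    simp only [List.map_nil, List.prod_nil, mul_one]
    exact (tau_ns hu (hc s) (hc (!s)) (sd_nil h hL)).symm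
  · rw [List.concat_eq_append] at hL
    have hx : (b.arm x).up = s := mem_sd.1 (by rw [hL]; simp)
    have e1 := sd_rc hm h hu hr s L x [] hL
    have e2 := tau_ns hu (lc_notMem h le_rfl (b.arm x).len_pos) (hc (!s)) (sd_lst h hL)
    have e3 := lc_zero h hu hr x
    rw [hx] at e3
    rw [← e2, e3, e1, hL, List.map_append, List.prod_append]
    simp only [List.map_cons, List.map_nil, List.prod_cons, List.prod_nil, mul_one, mul_assoc]

/-- the relation around the centre -/
theorem rel_ctr : ((sd b true).map (lpw b ε g)).prod * g (b.ctr - ε) *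
    ((sd b false).map (lpw b ε g)).prod = g (b.ctr + ε) := by
  have e1 := sd_end hm h hu hr true
  have e2 := sd_end hm h hu hr false
  simp only [sh, Bool.not_true, Bool.not_false, if_true, Bool.false_eq_true, if_false, tau,
    ← sub_eq_add_neg] at e1 e2
  rw [e1] at e2
  have e3 : u (b.ctr + ε) * g (b.ctr + ε) = u (b.ctr + ε) * (((sd b true).map (lpw b ε g)).prod *
      g (b.ctr - ε) * ((sd b false).map (lpw b ε g)).prod) := by
    rw [e2]; simp only [mul_assoc]
  exact (mul_left_cancel e3).symm

end

/-- the loop of the arm `x` based above the centre -/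
def lpc (b : SStar leaf) (ε : ℝ) (g : ℝ → G) (x : Fin m) : G :=
  if (b.arm x).up then lpw b ε g x else g b.ctr * lpw b ε g x * (g b.ctr)⁻¹

theorem map_lpc_true (b : SStar leaf) (ε : ℝ) (g : ℝ → G) {L : List (Fin m)}
    (hL : ∀ x ∈ L, (b.arm x).up = true) : L.map (lpc b ε g) = L.map (lpw b ε g) := by
  apply List.map_congr_left
  intro x hx
  rw [lpc, if_pos (hL x hx)]

theorem map_lpc_false (b : SStar leaf) (ε : ℝ) (g : ℝ → G) {L : List (Fin m)}
    (hL : ∀ x ∈ L, (b.arm x).up = false) : (L.map (lpc b ε g)).prod =
      g b.ctr * (L.map (lpw b ε g)).prod * (g b.ctr)⁻¹ := by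
  induction L with
  | nil => simp
  | cons a L ih =>
    rw [List.map_cons, List.prod_cons, ih fun x hx => hL x (List.mem_cons_of_mem _ hx), lpc,
      if_neg (by rw [hL a (by simp)]; decide), List.map_cons, List.prod_cons]
    group

section

variable {b : SStar leaf} {ε : ℝ} (hm : 0 < m) (h : Eps (pts b) ε) {g u : ℝ → G}
  (hu : IsPot b g u) (hr : Reg b ε g) (hc : g (b.ctr - ε) = g b.ctr)

include hm h hu hr hc

/-- the jumps are the loops in the rotation order, up to conjugation -/
theorem jmp_rot {L L' : List (Fin m)} {x : Fin m} (hL : b.rot = L ++ x :: L') :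
    jmp b ε g u x = (u (b.ctr + ε) * (L.map (lpc b ε g)).prod) * lpc b ε g x *
      (u (b.ctr + ε) * (L.map (lpc b ε g)).prod)⁻¹ := by
  rw [jmp_eq h hu hr x]
  rw [rot_eq] at hL
  rcases List.append_eq_append_iff.1 hL with ⟨a', e1, e2⟩ | ⟨c', e1, e2⟩
  · -- the arm is in the lower page
    have hx : (b.arm x).up = false := mem_sd.1 (by rw [e2]; simp)
    have e3 := sd_rc hm h hu hr false a' x L' e2
    have e4 := sd_end hm h hu hr true
    simp only [sh, Bool.not_true, if_true, Bool.false_eq_true, if_false, tau,
      ← sub_eq_add_neg] at e3 e4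
    rw [hx, tau, if_neg (by decide), e3, e4, hc, e1, List.map_append, List.prod_append,
      map_lpc_true b ε g (fun y hy => mem_sd.1 hy),
      map_lpc_false b ε g (L := a') (fun y hy => mem_sd.1 (by rw [e2]; simp [hy])), lpc,
      if_neg (by rw [hx]; decide)]
    group
  · rcases c' with _ | ⟨y, c'⟩
    · -- the first arm in the lower page
      simp only [List.append_nil] at e1
      simp only [List.nil_append] at e2
      have hx : (b.arm x).up = false := mem_sd.1 (by rw [← e2]; simp)
      have e3 := sd_rc hm h hu hr false [] x L' (by rw [← e2]; rfl)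
      have e4 := sd_end hm h hu hr true
      simp only [sh, Bool.not_true, if_true, Bool.false_eq_true, if_false, tau,
        ← sub_eq_add_neg, List.map_nil, List.prod_nil, mul_one] at e3 e4
      rw [hx, tau, if_neg (by decide), e3, e4, hc, ← e1,
        map_lpc_true b ε g (fun y hy => mem_sd.1 hy), lpc,
        if_neg (by rw [hx]; decide)]
      group
    · rw [List.cons_append, List.cons.injEq] at e2
      obtain ⟨rfl, e2⟩ := e2
      have hx : (b.arm x).up = true := mem_sd.1 (by rw [e1]; simp)
      have e3 := sd_rc hm h hu hr true L x c' e1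
      simp only [sh, if_true, tau] at e3
      rw [hx, tau, if_pos rfl, e3,
        map_lpc_true b ε g (L := L) (fun y hy => mem_sd.1 (by rw [e1]; simp [hy])), lpc,
        if_pos hx]

end

end Vale.Agent.P040.W
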