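import Vale.Agent.P040.W.Dev
import Vale.Agent.P040.H45.Hol

/-!
# The labels in terms of the crossing words of a star

For a potential `u` of the star `k` with the labels `g`, the product of the image of the crossing
word `H` with the potential is constant. Hence `g = κ⁻¹ * φ (Z) * κ'`.
-/

set_option autoImplicit false

namespace Vale.Agent.P040.W

open Topo Bp H177

variable {m : ℕ} {leaf : Fin m → ℝ} {G : Type*} [Group G]

omit [Group G] in
/-- A function on the circle without a finite set which is locally constant except possibly at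
one point is constant. -/
theorem circle_const {β : Type*} {P : Set ℝ} (hP : P.Finite) {ε : ℝ} (h : Eps P ε) {c : ℝ}
    {f : ℝ → β} (h1 : ∀ x y, x ∉ P → y ∉ P → (∀ p ∈ P, (p < x ↔ p < y)) → f x = f y)
    (h2 : ∀ x y, x ∉ P → y ∉ P → (∀ p ∈ P, x < p) → (∀ p ∈ P, p < y) → f x = f y)
    (h3 : ∀ r ∈ P, r ≠ c → f (r - ε) = f (r + ε)) {x y : ℝ} (hx : x ∉ P) (hy : y ∉ P) :
    f x = f y := by
  classical
  obtain ⟨lo, hlo⟩ : ∃ lo, ∀ p ∈ P, lo < p := by
    obtain ⟨l, hl⟩ := hP.bddBelow
    exact ⟨l - 1, fun p hp => by linarith [hl hp]⟩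
  obtain ⟨hi, hhi⟩ : ∃ hi, ∀ p ∈ P, p < hi := by
    obtain ⟨l, hl⟩ := hP.bddAbove
    exact ⟨l + 1, fun p hp => by linarith [hl hp]⟩
  have hlo' : lo ∉ P := fun h' => lt_irrefl _ (hlo _ h')
  have hhi' : hi ∉ P := fun h' => lt_irrefl _ (hhi _ h')
  have left : ∀ (n : ℕ) (x : ℝ), x ∉ P → (∀ p ∈ P, p < x → p ≠ c) →
      (hP.toFinset.filter (· < x)).card = n → f x = f lo := by
    intro n
    induction n using Nat.strong_induction_on with
    | _ n ih =>
      intro x hx hc hn
      rcases (hP.toFinset.filter (· < x)).eq_empty_or_nonempty with he | hne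
      · refine h1 x lo hx hlo' fun p hp => ⟨fun h' => ?_, fun h' => ?_⟩
        · have : p ∈ hP.toFinset.filter (· < x) :=
            Finset.mem_filter.2 ⟨hP.mem_toFinset.2 hp, h'⟩
          rw [he] at this
          simp at this
        · exact absurd h' (not_lt.2 (hlo p hp).le)
      · obtain ⟨r, hr⟩ : ∃ r, r = (hP.toFinset.filter (· < x)).max' hne := ⟨_, rfl⟩
        have hr1 := Finset.max'_mem _ hne
        rw [← hr, Finset.mem_filter, hP.mem_toFinset] at hr1
        have hr2 : ∀ p ∈ P, p < x → p ≤ r := by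
          intro p hp hpx
          rw [hr]
          exact Finset.le_max' _ _ (Finset.mem_filter.2 ⟨hP.mem_toFinset.2 hp, hpx⟩)
        have e1 : f x = f (r + ε) := by
          refine h1 x _ hx (h.add_notMem hr1.1) fun p hp => ?_
          rw [h.lt_add hr1.1 hp]
          exact ⟨hr2 p hp, fun h' => lt_of_le_of_lt h' hr1.2⟩
        rw [e1, ← h3 r hr1.1 (hc r hr1.1 hr1.2)]
        refine ih _ ?_ (r - ε) (h.sub_notMem hr1.1) (fun p hp hpr => ?_) rfl
        · rw [← hn]
          refine Finset.card_lt_card ⟨fun p hp => ?_, fun hsub => ?_⟩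
          · rw [Finset.mem_filter] at hp ⊢
            rw [hP.mem_toFinset] at hp
            exact ⟨hP.mem_toFinset.2 hp.1,
              lt_trans ((h.lt_sub hr1.1 hp.1).1 hp.2) hr1.2⟩
          · have : r ∈ hP.toFinset.filter (· < r - ε) :=
              hsub (Finset.mem_filter.2 ⟨hP.mem_toFinset.2 hr1.1, hr1.2⟩)
            rw [Finset.mem_filter] at this
            linarith [h.1]
        · exact hc p hp (lt_trans ((h.lt_sub hr1.1 hp).1 hpr) hr1.2)
  have right : ∀ (n : ℕ) (x : ℝ), x ∉ P → (∀ p ∈ P, x < p → p ≠ c) →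
      (hP.toFinset.filter (x < ·)).card = n → f x = f hi := by
    intro n
    induction n using Nat.strong_induction_on with
    | _ n ih =>
      intro x hx hc hn
      rcases (hP.toFinset.filter (x < ·)).eq_empty_or_nonempty with he | hne
      · refine h1 x hi hx hhi' fun p hp => ⟨fun _ => hhi p hp, fun _ => ?_⟩
        by_contra h'
        have hlt : x < p := lt_of_le_of_ne (not_lt.1 h') (fun h4 => hx (h4 ▸ hp))
        have : p ∈ hP.toFinset.filter (x < ·) :=
          Finset.mem_filter.2 ⟨hP.mem_toFinset.2 hp, hlt⟩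
        rw [he] at this
        simp at this
      · obtain ⟨r, hr⟩ : ∃ r, r = (hP.toFinset.filter (x < ·)).min' hne := ⟨_, rfl⟩
        have hr1 := Finset.min'_mem _ hne
        rw [← hr, Finset.mem_filter, hP.mem_toFinset] at hr1
        have hr2 : ∀ p ∈ P, x < p → r ≤ p := by
          intro p hp hpx
          rw [hr]
          exact Finset.min'_le _ _ (Finset.mem_filter.2 ⟨hP.mem_toFinset.2 hp, hpx⟩)
        have e1 : f x = f (r - ε) := by
          refine h1 x _ hx (h.sub_notMem hr1.1) fun p hp => ?_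
          rw [h.lt_sub hr1.1 hp]
          constructor
          · intro h'; exact h'.trans hr1.2
          · intro h'
            by_contra h4
            have hlt : x < p := lt_of_le_of_ne (not_lt.1 h4) (fun h4 => hx (h4 ▸ hp))
            exact absurd h' (not_lt.2 (hr2 p hp hlt))
        rw [e1, h3 r hr1.1 (hc r hr1.1 hr1.2)]
        refine ih _ ?_ (r + ε) (h.add_notMem hr1.1) (fun p hp hpr => ?_) rfl
        · rw [← hn]
          refine Finset.card_lt_card ⟨fun p hp => ?_, fun hsub => ?_⟩
          · rw [Finset.mem_filter] at hp ⊢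
            rw [hP.mem_toFinset] at hp
            exact ⟨hP.mem_toFinset.2 hp.1,
              hr1.2.trans ((h.add_lt hr1.1 hp.1).1 hp.2)⟩
          · have : r ∈ hP.toFinset.filter (r + ε < ·) :=
              hsub (Finset.mem_filter.2 ⟨hP.mem_toFinset.2 hr1.1, hr1.2⟩)
            rw [Finset.mem_filter] at this
            linarith [h.1]
        · exact hc p hp (hr1.2.trans ((h.add_lt hr1.1 hp).1 hpr))
  have all : ∀ x, x ∉ P → f x = f lo := by
    intro x hx
    rcases le_or_gt x c with hxc | hxc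
    · exact left _ x hx (fun p hp hpx => by rintro rfl; exact absurd hpx (not_lt.2 hxc)) rfl
    · rw [right _ x hx (fun p hp hpx => by rintro rfl; exact absurd hpx (not_lt.2 hxc.le)) rfl]
      exact (h2 lo hi hlo' hhi' hlo hhi).symm
  rw [all x hx, all y hy]

/-! ### `H` and the pieces -/

theorem H_ns (b : SStar leaf) (s : Bool) {x y : ℝ} (h : NS (arcs b s) x y) :
    H45.H b s x = H45.H b s y := by
  apply H45.H_eq
  intro i hi
  rw [H45.mem_pieces] at hi
  exact h _ ⟨i.1, i.2, hi.1, hi.2, rfl⟩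

theorem ns_of_pts {b : SStar leaf} {s : Bool} {x y : ℝ} (hx : x ∉ pts b) (hy : y ∉ pts b)
    (h : ∀ p ∈ pts b, (p < x ↔ p < y)) : NS (arcs b s) x y := by
  rintro _ ⟨z, j, hj, -, rfl⟩
  have h0 : SI (pts b) x y := Or.inl h
  exact SI.ins h0 hx hy (pts_mem b z (by omega)) (pts_mem b z (i := j + 1) (by omega))

theorem ns_of_inf {b : SStar leaf} {s : Bool} {x y : ℝ} (hx : x ∉ pts b) (hy : y ∉ pts b)
    (h : ∀ p ∈ pts b, x < p) (h' : ∀ p ∈ pts b, p < y) : NS (arcs b s) x y := by
  rintro _ ⟨z, j, hj, -, rfl⟩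
  have h0 : SI (pts b) x y := Or.inr (Or.inr fun p hp => ⟨h p hp, h' p hp⟩)
  exact SI.ins h0 hx hy (pts_mem b z (by omega)) (pts_mem b z (i := j + 1) (by omega))

theorem near_add {b : SStar leaf} {ε : ℝ} (h : Eps (pts b) ε) {r : ℝ} (hr : r ∈ pts b) :
    H45.Near (H45.pts b) (r + ε) r := by
  refine ⟨h.add_notMem hr, fun z hz hne => ?_⟩
  rw [h.lt_add hr hz]
  exact ⟨fun h1 => lt_of_le_of_ne h1 hne, fun h1 => h1.le⟩

theorem near_sub {b : SStar leaf} {ε : ℝ} (h : Eps (pts b) ε) {r : ℝ} (hr : r ∈ pts b) :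
    H45.Near (H45.pts b) (r - ε) r := by
  refine ⟨h.sub_notMem hr, fun z hz _ => ?_⟩
  rw [h.lt_sub hr hz]

section

variable {b : SStar leaf} {ε : ℝ} (hm : 0 < m) (h : Eps (pts b) ε) {g u : ℝ → G}
  (hu : IsPot b g u) (hr : Reg b ε g) (φ : FreeGroup (Fin m) →* G)
  (hφ : ∀ x, φ (FreeGroup.of x) = jmp b ε g u x)

/-- the constant function -/
noncomputable def kk (b : SStar leaf) (g u : ℝ → G) (φ : FreeGroup (Fin m) →* G) (s : Bool)
    (p : ℝ) : G := φ (H45.H b s p) * tau g u s p

include h hu hr hφ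

theorem kk_step (y : Fin m) (j : ℕ) (hj : j < (b.arm y).len) (s : Bool) :
    kk b g u φ s ((b.arm y).p (j + 1) - ε) = kk b g u φ s ((b.arm y).p (j + 1) + ε) := by
  have hp : (b.arm y).p (j + 1) ∈ pts b := pts_mem b y (by omega)
  have n1 := near_sub h hp
  have n2 := near_add h hp
  have h0 := h.1
  have key : ∀ (e1 : H45.H b s ((b.arm y).p (j + 1) + ε) =
      H45.H b s ((b.arm y).p (j + 1) - ε) * H45.jmp b y (j + 1))
      (e2 : tau g u s (lc b ε y j) = jmp b ε g u y * tau g u s (rc b ε y j)),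
      kk b g u φ s ((b.arm y).p (j + 1) - ε) = kk b g u φ s ((b.arm y).p (j + 1) + ε) := by
    intro e1 e2
    unfold kk
    rw [e1, map_mul]
    unfold H45.jmp
    unfold lc rc at e2
    rw [show j + 1 - 1 = j by omega]
    cases hs : (b.arm y).page j
    · simp only [hs, sh, Bool.not_false, if_true, Bool.false_eq_true, if_false,
        ← sub_eq_add_neg] at e2 ⊢
      rw [e2, hφ]
      group
    · simp only [hs, sh, Bool.not_true, if_true, Bool.false_eq_true, if_false,
        ← sub_eq_add_neg] at e2 ⊢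
      rw [e2, map_inv, hφ]
      group
  by_cases hs : (b.arm y).page j = s
  · subst hs
    exact key (H45.H_arr b y (by omega) rfl n1 n2 (by linarith) (by linarith))
      (jmp_arr h hu hr y j hj)
  · have hs' : s = !(b.arm y).page j := by
      revert hs; cases s <;> cases (b.arm y).page j <;> decide
    rcases Nat.lt_or_ge (j + 1) (b.arm y).len with h1 | h1
    · exact key (H45.H_dep b y h1 (by rw [page_succ, hs']) n1 n2 (by linarith) (by linarith))
        (jmp_reg h hu hr y j h1 s)
    · have h2 : j + 1 = (b.arm y).len := by omega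
      have e3 := ns_tip h le_rfl (b := b) h2
      have e4 := jmp_tip h hu y j h2
      rw [← hs'] at e3 e4
      have e5 := H_ns b s e3
      unfold kk
      unfold lc rc at e4 e5
      cases hs2 : (b.arm y).page j
      · simp only [hs2, sh, Bool.not_false, if_true, Bool.false_eq_true, if_false,
          ← sub_eq_add_neg] at e4 e5
        rw [e4, e5]
      · simp only [hs2, sh, Bool.not_true, if_true, Bool.false_eq_true, if_false,
          ← sub_eq_add_neg] at e4 e5
        rw [e4, e5]

/-- `kk` is constant -/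
theorem kk_const (s : Bool) {x y : ℝ} (hx : x ∉ pts b) (hy : y ∉ pts b) :
    kk b g u φ s x = kk b g u φ s y := by
  refine circle_const (pts_finite b) h (c := b.ctr) (f := kk b g u φ s) ?_ ?_ ?_ hx hy
  · intro x y hx hy hxy
    have hns := ns_of_pts (b := b) (s := s) hx hy hxy
    unfold kk
    rw [H_ns b s hns, tau_ns hu hx hy hns]
  · intro x y hx hy h1 h2
    have hns := ns_of_inf (b := b) (s := s) hx hy h1 h2
    unfold kk
    rw [H_ns b s hns, tau_ns hu hx hy hns]
  · rintro r ⟨z, i, hi, rfl⟩ hne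
    rcases Nat.eq_zero_or_pos i with rfl | hi0
    · exact absurd (b.arm_zero z) hne
    · obtain ⟨j, rfl⟩ : ∃ j, i = j + 1 := ⟨i - 1, by omega⟩
      exact kk_step h hu hr φ hφ z j (by omega) s

/-- **The labels in terms of the crossing words.** -/
theorem label_eq : ∃ κ κ' : G, ∀ p ∉ pts b, g p = κ⁻¹ * φ (H45.Z b p) * κ' := by
  obtain ⟨p0, hp0⟩ : ∃ p0, p0 ∉ pts b := (pts_finite b).infinite_compl.nonempty
  refine ⟨kk b g u φ true p0, kk b g u φ false p0, fun p hp => ?_⟩
  rw [← kk_const h hu hr φ hφ true hp hp0, ← kk_const h hu hr φ hφ false hp hp0]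
  unfold kk H45.Z tau
  rw [map_mul, map_inv]
  simp only [if_true, Bool.false_eq_true, if_false]
  group

end

end Vale.Agent.P040.W
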