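import Vale.Agent.P040.W.Star

/-!
# The two sides of the arms of a spine star

`rc b ε x i`, `lc b ε x i`: the copies of the point `i + 1` of the arm `x` on the right and on the
left of the arm. Consecutive copies are not separated by the arcs of their page.
-/

set_option autoImplicit false

namespace Vale.Agent.P040.W

open Topo Bp H177

variable {m : ℕ} {leaf : Fin m → ℝ}

/-- right copy of the point `i + 1` of the arm `x` -/
def rc (b : SStar leaf) (ε : ℝ) (x : Fin m) (i : ℕ) : ℝ :=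
  (b.arm x).p (i + 1) + sh ε (!(b.arm x).page i)

/-- left copy of the point `i + 1` of the arm `x` -/
def lc (b : SStar leaf) (ε : ℝ) (x : Fin m) (i : ℕ) : ℝ :=
  (b.arm x).p (i + 1) + sh ε ((b.arm x).page i)

section

variable {b : SStar leaf} {ε : ℝ} {P : Set ℝ} (h : Eps P ε) (hP : pts b ⊆ P)

include h hP

theorem rc_notMem {x : Fin m} {i : ℕ} (hi : i < (b.arm x).len) : rc b ε x i ∉ P :=
  sh_notMem h (hP (pts_mem b x (i := i + 1) hi)) _

theorem lc_notMem {x : Fin m} {i : ℕ} (hi : i < (b.arm x).len) : lc b ε x i ∉ P :=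
  sh_notMem h (hP (pts_mem b x (i := i + 1) hi)) _

/-- the copies along a piece -/
theorem ns_piece {x : Fin m} {i : ℕ} (hi : i + 1 < (b.arm x).len) (s : Bool) :
    NS (arcs b ((b.arm x).page (i + 1))) ((b.arm x).p (i + 1) + sh ε s)
      ((b.arm x).p (i + 1 + 1) + sh ε (!s)) := by
  have q1 : (b.arm x).p (i + 1) ∈ P := hP (pts_mem b x (by omega))
  have q2 : (b.arm x).p (i + 1 + 1) ∈ P := hP (pts_mem b x (by omega))
  rintro _ ⟨y, j, hj, hpg, rfl⟩
  by_cases hyx : y = x ∧ j = i + 1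
  · obtain ⟨rfl, rfl⟩ := hyx
    refine ins_self h q1 q2 ?_ s
    intro he
    rcases b.inj y _ y _ (by omega) (by omega) he with h1 | h1 <;> omega
  have e1 : (b.arm y).p j ∈ P := hP (pts_mem b y (by omega))
  have e2 : (b.arm y).p (j + 1) ∈ P := hP (pts_mem b y (by omega))
  have n1 : (b.arm x).p (i + 1) ≠ (b.arm y).p j := by
    intro he
    rcases b.inj x _ y _ (by omega) (by omega) he with h1 | h1
    · exact hyx ⟨h1.1.symm, h1.2.symm⟩
    · omega
  have n2 : (b.arm x).p (i + 1) ≠ (b.arm y).p (j + 1) := by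
    intro he
    rcases b.inj x _ y _ (by omega) (by omega) he with ⟨h1, h2⟩ | h1
    · have h3 : j = i := by omega
      subst h1 h3
      rw [page_succ] at hpg
      exact absurd hpg (by cases (b.arm x).page j <;> decide)
    · omega
  have n3 : (b.arm x).p (i + 1 + 1) ≠ (b.arm y).p j := by
    intro he
    rcases b.inj x _ y _ (by omega) (by omega) he with ⟨h1, h2⟩ | h1
    · subst h1
      rw [← h2, page_succ _ (i + 1)] at hpg
      exact absurd hpg (by cases (b.arm x).page (i + 1) <;> decide)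
    · omega
  have n4 : (b.arm x).p (i + 1 + 1) ≠ (b.arm y).p (j + 1) := by
    intro he
    rcases b.inj x _ y _ (by omega) (by omega) he with h1 | h1
    · exact hyx ⟨h1.1.symm, by omega⟩
    · omega
  rw [ins_other h q1 e1 e2 n1 n2, ins_other h q2 e1 e2 n3 n4]
  refine ins_nc ?_ n1 n2 n3 n4
  intro hI
  exact b.nc x (i + 1) y j hi hj ⟨hpg.symm, hI⟩

theorem ns_right {x : Fin m} {i : ℕ} (hi : i + 1 < (b.arm x).len) :
    NS (arcs b ((b.arm x).page (i + 1))) (rc b ε x i) (rc b ε x (i + 1)) := by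
  have := ns_piece h hP hi (!(b.arm x).page i)
  unfold rc
  rwa [page_succ _ i] at this ⊢

theorem ns_left {x : Fin m} {i : ℕ} (hi : i + 1 < (b.arm x).len) :
    NS (arcs b ((b.arm x).page (i + 1))) (lc b ε x i) (lc b ε x (i + 1)) := by
  have := ns_piece h hP hi ((b.arm x).page i)
  unfold lc
  rwa [page_succ _ i] at this ⊢

/-- the tip -/
theorem ns_tip {x : Fin m} {i : ℕ} (hi : i + 1 = (b.arm x).len) :
    NS (arcs b (!(b.arm x).page i)) (lc b ε x i) (rc b ε x i) := by
  have q1 : (b.arm x).p (i + 1) ∈ P := hP (pts_mem b x (by omega))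
  rintro _ ⟨y, j, hj, hpg, rfl⟩
  have e1 : (b.arm y).p j ∈ P := hP (pts_mem b y (by omega))
  have e2 : (b.arm y).p (j + 1) ∈ P := hP (pts_mem b y (by omega))
  have n1 : (b.arm x).p (i + 1) ≠ (b.arm y).p j := by
    intro he
    rcases b.inj x _ y _ (by omega) (by omega) he with ⟨h1, h2⟩ | h1
    · subst h1; omega
    · omega
  have n2 : (b.arm x).p (i + 1) ≠ (b.arm y).p (j + 1) := by
    intro he
    rcases b.inj x _ y _ (by omega) (by omega) he with ⟨h1, h2⟩ | h1
    · have h3 : j = i := by omega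
      subst h1 h3
      exact absurd hpg (by cases (b.arm x).page j <;> decide)
    · omega
  unfold lc rc
  rw [ins_other h q1 e1 e2 n1 n2, ins_other h q1 e1 e2 n1 n2]

/-! ### The centre -/

/-- a piece which does not start at the centre, seen from the centre -/
theorem ins_ctr {w : Fin m} {j : ℕ} (hj : j < (b.arm w).len) (hj0 : j ≠ 0) (s : Bool) :
    Ins ((b.arm w).p j, (b.arm w).p (j + 1)) (b.ctr + sh ε s) ↔
      Ins ((b.arm w).p j, (b.arm w).p (j + 1)) b.ctr := by
  have e1 : (b.arm w).p j ∈ P := hP (pts_mem b w (by omega))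
  have e2 : (b.arm w).p (j + 1) ∈ P := hP (pts_mem b w (by omega))
  have hc : b.ctr ∈ P := hP ⟨w, 0, by omega, (b.arm_zero w).symm⟩
  exact ins_other h hc e1 e2 (b.p_ne_ctr (by omega) hj0).symm
    (b.p_ne_ctr (i := j + 1) (by omega) (by omega)).symm s

/-- a piece which does not start at the centre, seen from the first point of an arm -/
theorem ins_first {w x : Fin m} {j : ℕ} (hj : j < (b.arm w).len) (hj0 : j ≠ 0)
    (hpg : (b.arm w).page j = (b.arm x).up) (s : Bool) :
    Ins ((b.arm w).p j, (b.arm w).p (j + 1)) ((b.arm x).p 1 + sh ε s) ↔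
      Ins ((b.arm w).p j, (b.arm w).p (j + 1)) b.ctr := by
  have hx := (b.arm x).len_pos
  have e1 : (b.arm w).p j ∈ P := hP (pts_mem b w (by omega))
  have e2 : (b.arm w).p (j + 1) ∈ P := hP (pts_mem b w (by omega))
  have q1 : (b.arm x).p 1 ∈ P := hP (pts_mem b x (by omega))
  have n1 : (b.arm x).p 1 ≠ (b.arm w).p j := by
    intro he
    rcases b.inj x _ w _ (by omega) (by omega) he with ⟨h1, h2⟩ | h1
    · subst h1 h2
      rw [page_succ _ 0, page_zero] at hpg
      exact absurd hpg (by cases (b.arm x).up <;> decide)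
    · omega
  have n2 : (b.arm x).p 1 ≠ (b.arm w).p (j + 1) := by
    intro he
    rcases b.inj x _ w _ (by omega) (by omega) he with ⟨h1, h2⟩ | h1 <;> omega
  rw [ins_other h q1 e1 e2 n1 n2]
  have c1 : b.ctr ≠ (b.arm w).p j := (b.p_ne_ctr (by omega) hj0).symm
  have c2 : b.ctr ≠ (b.arm w).p (j + 1) := (b.p_ne_ctr (by omega) (by omega)).symm
  refine ins_nc ?_ n1 n2 c1 c2
  intro hI
  refine b.nc x 0 w j hx hj ⟨?_, ?_⟩
  · rw [page_zero, hpg]
  · rw [b.arm_zero]
    unfold Topo.Inter at hI ⊢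
    rwa [min_comm, max_comm (b.ctr)]

/-- the first piece of an arm, seen from the right of a point -/
theorem ins_zero_add {w : Fin m} {q : ℝ} (hq : q ∈ P) (hqc : q ≠ b.ctr) :
    Ins ((b.arm w).p 0, (b.arm w).p 1) (q + ε) ↔
      ((b.ctr < (b.arm w).p 1 ∧ th b.ctr q < th b.ctr ((b.arm w).p 1)) ∨
        ((b.arm w).p 1 < b.ctr ∧ th b.ctr ((b.arm w).p 1) ≤ th b.ctr q)) := by
  have hw := (b.arm w).len_pos
  have e2 : (b.arm w).p 1 ∈ P := hP (pts_mem b w (by omega))
  have hc : b.ctr ∈ P := hP ⟨w, 0, by omega, (b.arm_zero w).symm⟩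
  have hne := b.p_one_ne w
  rw [b.arm_zero, th_lt_iff hqc hne, ← not_lt, th_lt_iff hqc hne]
  unfold Ins
  rcases lt_or_gt_of_ne hne with h1 | h1
  · simp only [min_eq_right h1.le, max_eq_left h1.le, h.lt_add hq e2, h.add_lt hq hc]
    grind
  · simp only [min_eq_left h1.le, max_eq_right h1.le, h.lt_add hq hc, h.add_lt hq e2]
    grind

/-- the first piece of an arm, seen from the left of a point -/
theorem ins_zero_sub {w : Fin m} {q : ℝ} (hq : q ∈ P) (hqc : q ≠ b.ctr) :
    Ins ((b.arm w).p 0, (b.arm w).p 1) (q - ε) ↔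
      ((b.ctr < (b.arm w).p 1 ∧ th b.ctr q ≤ th b.ctr ((b.arm w).p 1)) ∨
        ((b.arm w).p 1 < b.ctr ∧ th b.ctr ((b.arm w).p 1) < th b.ctr q)) := by
  have hw := (b.arm w).len_pos
  have e2 : (b.arm w).p 1 ∈ P := hP (pts_mem b w (by omega))
  have hc : b.ctr ∈ P := hP ⟨w, 0, by omega, (b.arm_zero w).symm⟩
  have hne := b.p_one_ne w
  rw [b.arm_zero, th_lt_iff hne hqc, ← not_lt, th_lt_iff hne hqc]
  unfold Ins
  rcases lt_or_gt_of_ne hne with h1 | h1
  · simp only [min_eq_right h1.le, max_eq_left h1.le, h.lt_sub hq e2, h.sub_lt hq hc]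
    grind
  · simp only [min_eq_left h1.le, max_eq_right h1.le, h.lt_sub hq hc, h.sub_lt hq e2]
    grind

theorem ins_zero_ctr_add {w : Fin m} :
    Ins ((b.arm w).p 0, (b.arm w).p 1) (b.ctr + ε) ↔ b.ctr < (b.arm w).p 1 := by
  have hw := (b.arm w).len_pos
  have e2 : (b.arm w).p 1 ∈ P := hP (pts_mem b w (by omega))
  have hc : b.ctr ∈ P := hP ⟨w, 0, by omega, (b.arm_zero w).symm⟩
  have hne := b.p_one_ne w
  rw [b.arm_zero]
  unfold Ins
  rcases lt_or_gt_of_ne hne with h1 | h1
  · simp only [min_eq_right h1.le, max_eq_left h1.le, h.lt_add hc e2, h.add_lt hc hc]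
    grind
  · simp only [min_eq_left h1.le, max_eq_right h1.le, h.lt_add hc hc, h.add_lt hc e2]
    grind

theorem ins_zero_ctr_sub {w : Fin m} :
    Ins ((b.arm w).p 0, (b.arm w).p 1) (b.ctr - ε) ↔ (b.arm w).p 1 < b.ctr := by
  have hw := (b.arm w).len_pos
  have e2 : (b.arm w).p 1 ∈ P := hP (pts_mem b w (by omega))
  have hc : b.ctr ∈ P := hP ⟨w, 0, by omega, (b.arm_zero w).symm⟩
  have hne := b.p_one_ne w
  rw [b.arm_zero]
  unfold Ins
  rcases lt_or_gt_of_ne hne with h1 | h1
  · simp only [min_eq_right h1.le, max_eq_left h1.le, h.lt_sub hc e2, h.sub_lt hc hc]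
    grind
  · simp only [min_eq_left h1.le, max_eq_right h1.le, h.lt_sub hc hc, h.sub_lt hc e2]
    grind

/-- two arms of the same page which are neighbours at the centre -/
theorem ns_mid {x y : Fin m} (hxy : (b.arm x).up = (b.arm y).up)
    (hlt : th b.ctr ((b.arm x).p 1) < th b.ctr ((b.arm y).p 1))
    (hno : ∀ w, (b.arm w).up = (b.arm x).up → ¬ (th b.ctr ((b.arm x).p 1) <
      th b.ctr ((b.arm w).p 1) ∧ th b.ctr ((b.arm w).p 1) < th b.ctr ((b.arm y).p 1))) :
    NS (arcs b (b.arm x).up) ((b.arm x).p 1 + ε) ((b.arm y).p 1 - ε) := by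
  have hx := (b.arm x).len_pos
  have hy := (b.arm y).len_pos
  have q1 : (b.arm x).p 1 ∈ P := hP (pts_mem b x (by omega))
  have q2 : (b.arm y).p 1 ∈ P := hP (pts_mem b y (by omega))
  rintro _ ⟨w, j, hj, hpg, rfl⟩
  rcases Nat.eq_zero_or_pos j with rfl | hj0
  · rw [page_zero] at hpg
    have := hno w hpg
    show Ins ((b.arm w).p 0, (b.arm w).p 1) _ ↔ Ins ((b.arm w).p 0, (b.arm w).p 1) _
    rw [ins_zero_add h hP q1 (b.p_one_ne x), ins_zero_sub h hP q2 (b.p_one_ne y)]
    grind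
  · have h1 := ins_first h hP hj (by omega) hpg true
    have h2 := ins_first h hP (x := y) hj (by omega) (hpg.trans hxy) false
    simp only [sh, if_true, Bool.false_eq_true, if_false, ← sub_eq_add_neg] at h1 h2
    rw [h1, h2]

/-- the first arm -/
theorem ns_fst {y : Fin m} (hno : ∀ w, (b.arm w).up = (b.arm y).up →
      ¬ (th b.ctr ((b.arm w).p 1) < th b.ctr ((b.arm y).p 1))) :
    NS (arcs b (b.arm y).up) (b.ctr + ε) ((b.arm y).p 1 - ε) := by
  have hy := (b.arm y).len_pos
  have q2 : (b.arm y).p 1 ∈ P := hP (pts_mem b y (by omega))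
  rintro _ ⟨w, j, hj, hpg, rfl⟩
  rcases Nat.eq_zero_or_pos j with rfl | hj0
  · rw [page_zero] at hpg
    have := hno w hpg
    show Ins ((b.arm w).p 0, (b.arm w).p 1) _ ↔ Ins ((b.arm w).p 0, (b.arm w).p 1) _
    rw [ins_zero_ctr_add h hP, ins_zero_sub h hP q2 (b.p_one_ne y)]
    have := b.p_one_ne w
    grind
  · have h1 := ins_ctr h hP hj (by omega) true
    have h2 := ins_first h hP (x := y) hj (by omega) hpg false
    simp only [sh, if_true, Bool.false_eq_true, if_false, ← sub_eq_add_neg] at h1 h2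
    rw [h1, h2]

/-- the last arm -/
theorem ns_lst {x : Fin m} (hno : ∀ w, (b.arm w).up = (b.arm x).up →
      ¬ (th b.ctr ((b.arm x).p 1) < th b.ctr ((b.arm w).p 1))) :
    NS (arcs b (b.arm x).up) ((b.arm x).p 1 + ε) (b.ctr - ε) := by
  have hx := (b.arm x).len_pos
  have q1 : (b.arm x).p 1 ∈ P := hP (pts_mem b x (by omega))
  rintro _ ⟨w, j, hj, hpg, rfl⟩
  rcases Nat.eq_zero_or_pos j with rfl | hj0
  · rw [page_zero] at hpg
    have := hno w hpg
    show Ins ((b.arm w).p 0, (b.arm w).p 1) _ ↔ Ins ((b.arm w).p 0, (b.arm w).p 1) _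
    rw [ins_zero_ctr_sub h hP, ins_zero_add h hP q1 (b.p_one_ne x)]
    have := b.p_one_ne w
    grind
  · have h1 := ins_ctr h hP hj (by omega) false
    have h2 := ins_first h hP (x := x) hj (by omega) hpg true
    simp only [sh, if_true, Bool.false_eq_true, if_false, ← sub_eq_add_neg] at h1 h2
    rw [h1, h2]

/-- no arm in a page -/
theorem ns_none {s : Bool} (hno : ∀ w, (b.arm w).up ≠ s) :
    NS (arcs b s) (b.ctr + ε) (b.ctr - ε) := by
  rintro _ ⟨w, j, hj, hpg, rfl⟩
  rcases Nat.eq_zero_or_pos j with rfl | hj0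
  · rw [page_zero] at hpg
    exact absurd hpg (hno w)
  · have h1 := ins_ctr h hP hj (by omega) true
    have h2 := ins_ctr h hP hj (by omega) false
    simp only [sh, if_true, Bool.false_eq_true, if_false, ← sub_eq_add_neg] at h1 h2
    rw [h1, h2]

end

end Vale.Agent.P040.W
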