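import Vale.Agent.P040.H242.Rot
import Vale.Agent.P040.H177.StarTree

/-!
# Stars on the spine: near copies of the points and separation by the pieces
-/

set_option autoImplicit false

namespace Vale.Agent.P040.W

open Topo Bp H177

variable {m : ℕ} {leaf : Fin m → ℝ}

/-! ### Pages -/

theorem page_succ (B : Arm) (i : ℕ) : B.page (i + 1) = !B.page i := by
  unfold Arm.page
  by_cases h : Even i
  · rw [if_neg (by simpa [Nat.even_add_one] using h), if_pos h]
  · rw [if_pos (by simpa [Nat.even_add_one] using h), if_neg h, Bool.not_not]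

theorem page_zero (B : Arm) : B.page 0 = B.up := by
  unfold Arm.page; simp

/-! ### Points and arcs of a star -/

/-- the arcs of the page `s` -/
def arcs (b : SStar leaf) (s : Bool) : Set (ℝ × ℝ) :=
  {e | ∃ x, ∃ j < (b.arm x).len, (b.arm x).page j = s ∧
    e = ((b.arm x).p j, (b.arm x).p (j + 1))}

/-- the points on the spine -/
def pts (b : SStar leaf) : Set ℝ := {t | ∃ x, ∃ i ≤ (b.arm x).len, t = (b.arm x).p i}

theorem pts_mem (b : SStar leaf) (x : Fin m) {i : ℕ} (hi : i ≤ (b.arm x).len) :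
    (b.arm x).p i ∈ pts b := ⟨x, i, hi, rfl⟩

theorem leaf_mem (b : SStar leaf) (x : Fin m) : leaf x ∈ pts b :=
  ⟨x, _, le_rfl, (b.arm_last x).symm⟩

theorem leaf_inj (b : SStar leaf) : Function.Injective leaf := by
  intro x y h
  have hx := (b.arm x).len_pos
  rcases b.inj x _ y _ le_rfl le_rfl (by rw [b.arm_last, b.arm_last]; exact h) with h1 | h1
  · exact h1.1
  · omega

/-- a star as an arc diagram with one centre -/
def diag (b : SStar leaf) : ArcDiagram m 1 where
  leaf := leaf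
  ctr := fun _ => b.ctr
  arm := fun x _ => b.arm x
  leaf_inj := leaf_inj b
  ctr_inj := fun _ _ _ => Subsingleton.elim _ _
  leaf_ne := fun x _ => b.ctr_ne x
  arm_zero := fun x _ => b.arm_zero x
  arm_last := fun x _ => b.arm_last x
  inj := by
    intro x k i y k' j hi hj h
    rcases b.inj x i y j hi hj h with h1 | h1
    · exact Or.inl ⟨h1.1, Subsingleton.elim _ _, h1.2⟩
    · exact Or.inr (Or.inl ⟨Subsingleton.elim _ _, h1.1, h1.2⟩)
  nc := fun x _ i y _ j _ hi hj => b.nc x i y j hi hj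

theorem tree (b : SStar leaf) (hm : 0 < m) : Tree (pts b) (arcs b true) (arcs b false) :=
  (diag b).tree 0 hm

theorem pts_finite (b : SStar leaf) : (pts b).Finite := by
  rcases Nat.eq_zero_or_pos m with rfl | hm
  · have : pts b = ∅ := by
      ext t; simp [pts]
    rw [this]; exact Set.finite_empty
  · exact (tree b hm).finite

theorem arcs_mem (b : SStar leaf) (x : Fin m) {j : ℕ} (hj : j < (b.arm x).len) :
    ((b.arm x).p j, (b.arm x).p (j + 1)) ∈ arcs b ((b.arm x).page j) :=
  ⟨x, j, hj, rfl, rfl⟩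

/-! ### Small numbers -/

/-- `ε` is small for `P` -/
def Eps (P : Set ℝ) (ε : ℝ) : Prop := 0 < ε ∧ ∀ p ∈ P, ∀ q ∈ P, p ≠ q → 2 * ε < |p - q|

theorem Eps.mono {P Q : Set ℝ} {ε : ℝ} (h : Eps Q ε) (hPQ : P ⊆ Q) : Eps P ε :=
  ⟨h.1, fun p hp q hq => h.2 p (hPQ hp) q (hPQ hq)⟩

theorem exists_eps {P : Set ℝ} (hP : P.Finite) : ∃ ε, Eps P ε := by
  classical
  have hf : ((P ×ˢ P) ∩ {w : ℝ × ℝ | w.1 ≠ w.2}).Finite := (hP.prod hP).inter_of_left _
  by_cases hne : ((P ×ˢ P) ∩ {w : ℝ × ℝ | w.1 ≠ w.2}).Nonempty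
  · obtain ⟨w, hw, hmin⟩ := Set.exists_min_image _ (fun w : ℝ × ℝ => |w.1 - w.2|) hf hne
    have hpos : 0 < |w.1 - w.2| := abs_pos.2 (sub_ne_zero.2 hw.2)
    refine ⟨|w.1 - w.2| / 3, by positivity, ?_⟩
    intro p hp q hq hpq
    have := hmin (p, q) ⟨⟨hp, hq⟩, hpq⟩
    simp only at this
    linarith
  · refine ⟨1, one_pos, ?_⟩
    intro p hp q hq hpq
    exact absurd ⟨(p, q), ⟨hp, hq⟩, hpq⟩ hne

section eps

variable {P : Set ℝ} {ε : ℝ} (h : Eps P ε) {q r : ℝ} (hq : q ∈ P) (hr : r ∈ P)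

include h hq hr

theorem Eps.gap (hqr : q < r) : q + ε < r - ε := by
  have := h.2 q hq r hr hqr.ne
  rw [abs_sub_comm, abs_of_pos (by linarith)] at this
  linarith

theorem Eps.lt_add : r < q + ε ↔ r ≤ q := by
  constructor
  · intro h1
    by_contra h2
    push Not at h2
    have := h.gap hq hr h2
    have := h.1
    linarith
  · intro h1; linarith [h.1]

theorem Eps.lt_sub : r < q - ε ↔ r < q := by
  constructor
  · intro h1; linarith [h.1]
  · intro h1
    have := h.gap hr hq h1
    have := h.1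
    linarith

theorem Eps.add_lt : q + ε < r ↔ q < r := by
  constructor
  · intro h1; linarith [h.1]
  · intro h1
    have := h.gap hq hr h1
    have := h.1
    linarith

theorem Eps.sub_lt : q - ε < r ↔ q ≤ r := by
  constructor
  · intro h1
    by_contra h2
    push Not at h2
    have := h.gap hr hq h2
    have := h.1
    linarith
  · intro h1; linarith [h.1]

end eps

theorem Eps.add_notMem {P : Set ℝ} {ε : ℝ} (h : Eps P ε) {q : ℝ} (hq : q ∈ P) : q + ε ∉ P := by
  intro h1
  have := (h.lt_add hq h1 (r := q + ε)).not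
  have h3 := h.1
  rw [not_lt, not_le] at this
  have := this.1 le_rfl
  have h4 := h.gap hq h1 this
  linarith

theorem Eps.sub_notMem {P : Set ℝ} {ε : ℝ} (h : Eps P ε) {q : ℝ} (hq : q ∈ P) : q - ε ∉ P := by
  intro h1
  have h3 := h.1
  have h4 := h.gap h1 hq (by linarith)
  linarith

/-- shifted by `±ε` -/
def sh (ε : ℝ) (s : Bool) : ℝ := if s then ε else -ε

theorem sh_notMem {P : Set ℝ} {ε : ℝ} (h : Eps P ε) {q : ℝ} (hq : q ∈ P) (s : Bool) :
    q + sh ε s ∉ P := by
  cases s
  · simp only [sh]; exact h.sub_notMem hq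
  · simp only [sh]; exact h.add_notMem hq

/-! ### Separation -/

section sep

variable {P : Set ℝ} {ε : ℝ} (h : Eps P ε)

include h

/-- the two copies on one side of a piece -/
theorem ins_self {q q' : ℝ} (hq : q ∈ P) (hq' : q' ∈ P) (hne : q ≠ q') (s : Bool) :
    Ins (q, q') (q + sh ε s) ↔ Ins (q, q') (q' + sh ε (!s)) := by
  have h0 := h.1
  have a1 := h.gap hq hq'
  have a2 := h.gap hq' hq
  rcases lt_or_gt_of_ne hne with h1 | h1
  · have a1 := a1 h1
    cases s <;> simp only [Ins, sh, min_eq_left h1.le, max_eq_right h1.le, Bool.not_true,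
      Bool.not_false] <;> constructor <;> rintro ⟨h2, h3⟩ <;> constructor <;>
      simp only [if_true, if_false, Bool.false_eq_true] at * <;> linarith
  · have a2 := a2 h1
    cases s <;> simp only [Ins, sh, min_eq_right h1.le, max_eq_left h1.le, Bool.not_true,
      Bool.not_false] <;> constructor <;> rintro ⟨h2, h3⟩ <;> constructor <;>
      simp only [if_true, if_false, Bool.false_eq_true] at * <;> linarith

/-- the copies of a point which is not an end of the piece -/
theorem ins_other {q : ℝ} {e : ℝ × ℝ} (hq : q ∈ P) (h1 : e.1 ∈ P) (h2 : e.2 ∈ P)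
    (n1 : q ≠ e.1) (n2 : q ≠ e.2) (s : Bool) : Ins e (q + sh ε s) ↔ Ins e q := by
  have m1 : min e.1 e.2 ∈ P := by rcases min_choice e.1 e.2 with h | h <;> rw [h] <;> assumption
  have m2 : max e.1 e.2 ∈ P := by rcases max_choice e.1 e.2 with h | h <;> rw [h] <;> assumption
  have n3 : q ≠ min e.1 e.2 := by rcases min_choice e.1 e.2 with h | h <;> rw [h] <;> assumption
  have n4 : q ≠ max e.1 e.2 := by rcases max_choice e.1 e.2 with h | h <;> rw [h] <;> assumption
  unfold Ins
  cases s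
  · simp only [sh, Bool.false_eq_true, if_false]
    rw [← sub_eq_add_neg, h.lt_sub hq m1, h.sub_lt hq m2]
    constructor
    · rintro ⟨h3, h4⟩; exact ⟨h3, lt_of_le_of_ne h4 n4⟩
    · rintro ⟨h3, h4⟩; exact ⟨h3, h4.le⟩
  · simp only [sh, if_true]
    rw [h.lt_add hq m1, h.add_lt hq m2]
    constructor
    · rintro ⟨h3, h4⟩; exact ⟨lt_of_le_of_ne h3 (Ne.symm n3), h4⟩
    · rintro ⟨h3, h4⟩; exact ⟨h3.le, h4⟩

end sep

/-- the ends of a piece which does not interleave `(t, t')` -/
theorem ins_nc {q q' t t' : ℝ} (hnc : ¬ Topo.Inter q q' t t') (h1 : q ≠ t) (h2 : q ≠ t')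
    (h3 : q' ≠ t) (h4 : q' ≠ t') : Ins (t, t') q ↔ Ins (t, t') q' := by
  unfold Topo.Inter at hnc
  unfold Ins
  push Not at hnc
  obtain ⟨hnc1, hnc2⟩ := hnc
  simp only
  rcases le_total t t' with a | a <;> rcases le_total q q' with c | c <;>
  · simp only [min_eq_left a, max_eq_right a, min_eq_left c, max_eq_right c, min_eq_right a,
      max_eq_left a, min_eq_right c, max_eq_left c] at *
    grind

end Vale.Agent.P040.W
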