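import Vale.Agent.P040.W.Kc
import Vale.Agent.P040.H45.Len
import Vale.Agent.P040.H242.ConvWord

/-!
# The loops of a star in terms of the jumps of another star
-/

set_option autoImplicit false

namespace Vale.Agent.P040.W

open Topo Bp H177 Pst

variable {m : ℕ} {leaf : Fin m → ℝ} {G : Type*} [Group G]

theorem gp_symm {b k : SStar leaf} (h : b.GP k) : k.GP b := by
  intro x i y j hi hj e
  obtain ⟨h1, h2, h3⟩ := h y j x i hj hi e.symm
  exact ⟨h1.symm, h3, h2⟩

/-! ### The crossing words along the arms of another star -/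

theorem last_pt (b : SStar leaf) (x : Fin m) :
    (b.arm x).p ((b.arm x).len - 1 + 1) = leaf x := by
  have := (b.arm x).len_pos
  rw [show (b.arm x).len - 1 + 1 = (b.arm x).len by omega, b.arm_last]

theorem ww_Z (k b : SStar leaf) (x : Fin m) (n : ℕ) :
    ww b (H45.Z k) x n = H45.zw k b x n := by
  induction n with
  | zero => rfl
  | succ n ih => rw [ww, H45.zw, ih]; rfl

section

variable {b k : SStar leaf} {ε : ℝ} (h : Eps (pts b ∪ pts k) ε)

include h

theorem near_leaf_add (x : Fin m) : H45.Near (H45.pts k) (leaf x + ε) (leaf x) :=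
  near_add (h.mono Set.subset_union_right) (leaf_mem k x)

theorem near_leaf_sub (x : Fin m) : H45.Near (H45.pts k) (leaf x - ε) (leaf x) :=
  near_sub (h.mono Set.subset_union_right) (leaf_mem k x)

/-- the small loop at the leaf -/
theorem tipl_Z (x : Fin m) : tipl b ε (H45.Z k) x =
    H45.H k ((b.arm x).page ((b.arm x).len - 1)) (leaf x) * FreeGroup.of x *
      (H45.H k ((b.arm x).page ((b.arm x).len - 1)) (leaf x))⁻¹ := by
  have h0 := h.1
  have n1 := near_leaf_sub h x
  have n2 := near_leaf_add h x
  have e1 := H45.Z_leaf k x n1 n2 (by linarith) (by linarith)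
  unfold tipl rc lc
  rw [last_pt b x]
  cases hs : (b.arm x).page ((b.arm x).len - 1)
  · obtain ⟨e, he⟩ := H45.H_leaf k x false n1 (by linarith)
    simp only [sh, Bool.not_false, if_true, Bool.false_eq_true, if_false, ← sub_eq_add_neg,
      cross]
    rw [e1, H45.Z, he]
    group
  · obtain ⟨e, he⟩ := H45.H_leaf k x true n1 (by linarith)
    simp only [sh, Bool.not_true, if_true, Bool.false_eq_true, if_false, ← sub_eq_add_neg,
      cross]
    rw [e1, H45.Z, he]
    group

theorem lpw_Z (x : Fin m) : lpw b ε (H45.Z k) x =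
    H45.H k (b.arm x).up b.ctr * (H45.A k b x * FreeGroup.of x * (H45.A k b x)⁻¹) *
      (H45.H k (b.arm x).up b.ctr)⁻¹ := by
  unfold lpw
  rw [tipl_Z h, ww_Z, H45.A_eq, page_zero]
  group

/-- the loops with the labels `Z` -/
theorem lpc_Z (x : Fin m) : lpc b ε (H45.Z k) x =
    H45.H k true b.ctr * (H45.A k b x * FreeGroup.of x * (H45.A k b x)⁻¹) *
      (H45.H k true b.ctr)⁻¹ := by
  unfold lpc
  rw [lpw_Z h]
  cases hs : (b.arm x).up
  · simp only [Bool.false_eq_true, if_false]
    unfold H45.Z
    group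
  · simp only [if_true]

end

/-! ### Change of labels -/

section

variable {b k : SStar leaf} {ε : ℝ} (h : Eps (pts b ∪ pts k) ε) (hgp : b.GP k)

include h hgp

omit h in
theorem ctr_notMem (hm : 0 < m) : b.ctr ∉ pts k := by
  rintro ⟨y, j, hj, e⟩
  have hl := (b.arm (⟨0, hm⟩ : Fin m)).len_pos
  have := hgp ⟨0, hm⟩ 0 y j (by omega) hj (by rw [b.arm_zero]; exact e)
  omega

omit h in
theorem reg_notMem {x : Fin m} {i : ℕ} (hi : i < (b.arm x).len) : (b.arm x).p i ∉ pts k := by
  rintro ⟨y, j, hj, e⟩
  have := hgp x i y j hi.le hj e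
  omega

variable {g : ℝ → G} {φ : FreeGroup (Fin m) →* G} {κ κ' : G}
  (hg : ∀ p ∉ pts k, g p = κ⁻¹ * φ (H45.Z k p) * κ')

include hg

omit h in
theorem ww_change (x : Fin m) (i : ℕ) (hi : i < (b.arm x).len) :
    ww b g x i = (if (b.arm x).up then κ else κ')⁻¹ * φ (ww b (H45.Z k) x i) *
      (if (b.arm x).page i then κ else κ') := by
  induction i with
  | zero =>
    simp only [ww, map_one, page_zero]
    cases (b.arm x).up <;> simp
  | succ i ih =>
    rw [ww, ww, ih (by omega), hg _ (reg_notMem hgp hi), map_mul, page_succ]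
    cases hs : (b.arm x).page i
    · simp only [cross, Bool.false_eq_true, if_false, Bool.not_false, if_true, map_inv]
      group
    · simp only [cross, Bool.false_eq_true, if_false, Bool.not_true, if_true]
      group

omit hgp in
theorem tipl_change (x : Fin m) :
    tipl b ε g x = (if (b.arm x).page ((b.arm x).len - 1) then κ else κ')⁻¹ *
      φ (tipl b ε (H45.Z k) x) * (if (b.arm x).page ((b.arm x).len - 1) then κ else κ') := by
  have hk : Eps (pts k) ε := h.mono Set.subset_union_right
  have n1 : ∀ s, leaf x + sh ε s ∉ pts k := fun s => sh_notMem hk (leaf_mem k x) s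
  unfold tipl rc lc
  rw [last_pt b x, hg _ (n1 _), hg _ (n1 _), map_mul]
  cases hs : (b.arm x).page ((b.arm x).len - 1)
  · simp only [cross, Bool.false_eq_true, if_false, Bool.not_false, if_true, map_inv]
    group
  · simp only [cross, Bool.false_eq_true, if_false, Bool.not_true, if_true, map_inv]
    group

theorem lpw_change (x : Fin m) :
    lpw b ε g x = (if (b.arm x).up then κ else κ')⁻¹ * φ (lpw b ε (H45.Z k) x) *
      (if (b.arm x).up then κ else κ') := by
  have := (b.arm x).len_pos
  unfold lpw
  rw [ww_change hgp hg x _ (by omega), tipl_change h hg x, map_mul, map_mul, map_inv]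
  group

/-- **The loops of the star `b` in terms of the jumps of the star `k`.** -/
theorem lpc_change (hm : 0 < m) (x : Fin m) :
    lpc b ε g x = (κ⁻¹ * φ (H45.H k true b.ctr)) *
      φ (H45.A k b x * FreeGroup.of x * (H45.A k b x)⁻¹) *
      (κ⁻¹ * φ (H45.H k true b.ctr))⁻¹ := by
  have e1 : lpc b ε g x = κ⁻¹ * φ (lpc b ε (H45.Z k) x) * κ := by
    unfold lpc
    rw [lpw_change h hgp hg x]
    cases hs : (b.arm x).up
    · simp only [Bool.false_eq_true, if_false]
      rw [hg _ (ctr_notMem hgp hm), map_mul, map_mul, map_inv]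
      group
    · simp only [if_true]
  rw [e1, lpc_Z h, map_mul, map_mul, map_inv]
  group

end

end Vale.Agent.P040.W
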